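import Vale.Agent.P273.H857.All1
import Vale.Agent.P273.H857.EQ
import Vale.Agent.P273.H857.Val
import Vale.Agent.P273.H26.RootB
import Vale.Agent.P273.H233.GPINF

/-!
All statements of the block, without hypotheses.
-/

open Complex Set

namespace Vale.Agent.P273.H857

open H595

theorem stmROOTn : StmROOTn := H26.stmROOTn stmEX stmINVn stmHOLn

theorem stmROOT : StmROOT := stmROOTn.inj

theorem stmINF : StmINF := H233.Inf.stmINF stmINV stmHOL

theorem stmFLIPLn : StmFLIPLn := H539.N.stmFLIPLn stmEX stmHOLn stmROOTn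

/-- **non degeneracy on all of `XX`** -/
theorem nondegX {b : C6} (hb : b ∈ XX) {v : ℂ × ℂ × ℝ} (h0 : ∀ j, VV v (lo j) b (b j) = 0) :
    v.1 = 0 ∧ v.2.1 = 0 :=
  nondeg stmEX stmLOW stmHOL stmROOT stmFLIPR stmFLIPL hb h0

end Vale.Agent.P273.H857
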