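import Vale.Agent.P273.H857.Rt

/-!
Primitives of `x^k dx / y` along graphs over the real direction: every definition of the block.
`B` is the set of the labels that are passed from below.
-/

open Complex Set Filter Topology MeasureTheory
open scoped ContDiff

namespace Vale.Agent.P273.H857

noncomputable section

/-- six labelled points -/
abbrev C6 : Type := Fin 6 → ℂ

/-- The part of the configuration space where, whenever two real parts agree, the point with the
smaller label is the upper one (the same set as in `H681.XX`). -/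
def XX : Set C6 := {b | ∀ i j, i < j → (b i).re = (b j).re → (b j).im < (b i).im}

/-- the square root for the label `l` -/
def br (B : Finset (Fin 6)) (l : Fin 6) (z : ℂ) : ℂ := if l ∈ B then ru z else rt z

/-- the domain of the square root for the label `l` -/
def Sb (B : Finset (Fin 6)) (l : Fin 6) : Set ℂ := if l ∈ B then Su else Sl

/-- the square root of `∏ (z - b l)`, cut upwards for `l ∈ B` and downwards for `l ∉ B` -/
def sq (B : Finset (Fin 6)) (b : C6) (z : ℂ) : ℂ := ∏ l, br B l (z - b l)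

/-- the part of `sq` without the label `j` -/
def sqj (j : Fin 6) (B : Finset (Fin 6)) (b : C6) (z : ℂ) : ℂ :=
  ∏ l ∈ Finset.univ.erase j, br B l (z - b l)

/-- the domain of `sq B b` -/
def Dm (B : Finset (Fin 6)) (b : C6) : Set ℂ := {z | ∀ l, z - b l ∈ Sb B l}

/-- the graph path -/
def gam (x : ℂ) (g : ℝ → ℝ) (t : ℝ) : ℂ := x + (t + g t * I)

/-- heights of graph paths: smooth, `0` at `0`, bounded derivative -/
structure IsPath (g : ℝ → ℝ) : Prop where
  smooth : ContDiff ℝ ∞ g
  zero : g 0 = 0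
  bdd : ∃ K, ∀ t, |deriv g t| ≤ K

/-- the path with height `g` from `x` passes below `b l` for `l ∈ B`, above `b l` for `l ∉ B`
(a root at the starting point itself is not counted) -/
def Adm (B : Finset (Fin 6)) (b : C6) (x : ℂ) (g : ℝ → ℝ) : Prop :=
  IsPath g ∧ ∀ l, b l ≠ x → 0 ≤ (b l - x).re →
    (l ∈ B → g (b l - x).re < (b l - x).im) ∧ (l ∉ B → (b l - x).im < g (b l - x).re)

/-- there is such a path -/
def OK (B : Finset (Fin 6)) (b : C6) (x : ℂ) : Prop :=
  (∀ l ∈ B, ∀ m ∉ B, (b l).re = (b m).re → x.re < (b l).re → (b m).im < (b l).im) ∧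
    ∀ l, b l ≠ x → (b l).re = x.re → (l ∈ B → x.im < (b l).im) ∧ (l ∉ B → (b l).im < x.im)

/-- the integrand -/
def igd (k : ℕ) (B : Finset (Fin 6)) (b : C6) (x : ℂ) (g : ℝ → ℝ) (t : ℝ) : ℂ :=
  gam x g t ^ k / sq B b (gam x g t) * (1 + deriv g t * I)

/-- the primitive of `z ^ k / sq B b z` along the path, `0` at infinity -/
def PG (k : ℕ) (B : Finset (Fin 6)) (b : C6) (x : ℂ) (g : ℝ → ℝ) : ℂ :=
  -∫ t in Ioi (0 : ℝ), igd k B b x g t

open Classical in
/-- **the primitive** -/
def P (k : ℕ) (B : Finset (Fin 6)) (b : C6) (x : ℂ) : ℂ :=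
  if h : ∃ g, Adm B b x g then PG k B b x h.choose else 0

/-- labels smaller than `j` -/
def lo (j : Fin 6) : Finset (Fin 6) := Finset.univ.filter (· < j)

/-- **the basic half periods** -/
def piX (k : ℕ) (j : Fin 6) (b : C6) : ℂ := P k (lo j) b (b j)

/-- labels above `x` on the same vertical line -/
def TA (b : C6) (x : ℂ) : Finset (Fin 6) :=
  Finset.univ.filter fun l => (b l).re = x.re ∧ x.im < (b l).im

theorem br_mul_self (B : Finset (Fin 6)) (l : Fin 6) (z : ℂ) : br B l z * br B l z = z := by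
  unfold br; split_ifs
  · exact ru_mul_self z
  · exact rt_mul_self z

theorem norm_br (B : Finset (Fin 6)) (l : Fin 6) (z : ℂ) : ‖br B l z‖ = Real.sqrt ‖z‖ := by
  unfold br; split_ifs
  · exact norm_ru z
  · exact norm_rt z

theorem br_ne_zero {B : Finset (Fin 6)} {l : Fin 6} {z : ℂ} (h : z ≠ 0) : br B l z ≠ 0 := by
  unfold br; split_ifs
  · exact ru_ne_zero h
  · exact rt_ne_zero h

theorem isOpen_Sb (B : Finset (Fin 6)) (l : Fin 6) : IsOpen (Sb B l) := by
  unfold Sb; split_ifs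
  · exact isOpen_Su
  · exact isOpen_Sl

theorem mem_Sb_of_re {B : Finset (Fin 6)} {l : Fin 6} {z : ℂ} (h : z.re ≠ 0) : z ∈ Sb B l := by
  unfold Sb; split_ifs <;> exact Or.inr h

theorem mem_Sb_iff {B : Finset (Fin 6)} {l : Fin 6} {z : ℂ} :
    z ∈ Sb B l ↔ (z.re = 0 → (l ∈ B → z.im < 0) ∧ (l ∉ B → 0 < z.im)) := by
  by_cases h : l ∈ B
  · simp only [Sb, h, if_true, Su, mem_ofPred_eq, not_true_eq_false, false_imp_iff, and_true,
      true_imp_iff]
    tauto
  · simp only [Sb, h, if_false, Sl, mem_ofPred_eq, not_false_eq_true, false_imp_iff, true_and,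
      true_imp_iff]
    tauto

theorem Sb_ne_zero {B : Finset (Fin 6)} {l : Fin 6} {z : ℂ} (h : z ∈ Sb B l) : z ≠ 0 := by
  rintro rfl
  rw [mem_Sb_iff] at h
  have := h (by simp)
  by_cases hl : l ∈ B
  · exact lt_irrefl (0 : ℝ) (by simpa using this.1 hl)
  · exact lt_irrefl (0 : ℝ) (by simpa using this.2 hl)

theorem analyticAt_br {B : Finset (Fin 6)} {l : Fin 6} {z : ℂ} (h : z ∈ Sb B l) :
    AnalyticAt ℂ (br B l) z := by
  by_cases hl : l ∈ B
  · have e : br B l = ru := by funext w; simp [br, hl]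
    rw [Sb, if_pos hl] at h
    rw [e]; exact analyticAt_ru h
  · have e : br B l = rt := by funext w; simp [br, hl]
    rw [Sb, if_neg hl] at h
    rw [e]; exact analyticAt_rt h

theorem sq_eq (j : Fin 6) (B : Finset (Fin 6)) (b : C6) (z : ℂ) :
    sq B b z = br B j (z - b j) * sqj j B b z := by
  unfold sq sqj
  exact (Finset.mul_prod_erase _ _ (Finset.mem_univ j)).symm

theorem sq_mul_self (B : Finset (Fin 6)) (b : C6) (z : ℂ) :
    sq B b z * sq B b z = ∏ l, (z - b l) := by
  rw [sq, ← Finset.prod_mul_distrib]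
  exact Finset.prod_congr rfl fun l _ => br_mul_self B l _

theorem sq_ne_zero {B : Finset (Fin 6)} {b : C6} {z : ℂ} (h : ∀ l, z ≠ b l) : sq B b z ≠ 0 := by
  rw [sq, Finset.prod_ne_zero_iff]
  exact fun l _ => br_ne_zero (sub_ne_zero.2 (h l))

theorem isOpen_Dm2 (B : Finset (Fin 6)) : IsOpen {p : C6 × ℂ | p.2 ∈ Dm B p.1} := by
  have : {p : C6 × ℂ | p.2 ∈ Dm B p.1} = ⋂ l, {p : C6 × ℂ | p.2 - p.1 l ∈ Sb B l} := by
    ext p; simp [Dm]
  rw [this]
  refine isOpen_iInter_of_finite fun l => (isOpen_Sb B l).preimage ?_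
  fun_prop

theorem isOpen_Dm (B : Finset (Fin 6)) (b : C6) : IsOpen (Dm B b) :=
  (isOpen_Dm2 B).preimage (Continuous.prodMk_right b)

theorem analyticAt_sq {B : Finset (Fin 6)} {b : C6} {z : ℂ} (h : z ∈ Dm B b) :
    AnalyticAt ℂ (fun p : C6 × ℂ => sq B p.1 p.2) (b, z) := by
  unfold sq
  refine Finset.analyticAt_fun_prod _ fun l _ => ?_
  have h1 : AnalyticAt ℂ (fun p : C6 × ℂ => p.2 - p.1 l) (b, z) :=
    (ContinuousLinearMap.snd ℂ C6 ℂ -
      (ContinuousLinearMap.proj l).comp (ContinuousLinearMap.fst ℂ C6 ℂ)).analyticAt _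
  exact (analyticAt_br (h l)).comp_of_eq h1 rfl

theorem gam_re (x : ℂ) (g : ℝ → ℝ) (t : ℝ) : (gam x g t).re = x.re + t := by simp [gam]

theorem gam_im (x : ℂ) (g : ℝ → ℝ) (t : ℝ) : (gam x g t).im = x.im + g t := by simp [gam]

theorem gam_zero {x : ℂ} {g : ℝ → ℝ} (h : g 0 = 0) : gam x g 0 = x := by simp [gam, h]

/-- points of an admissible path lie in the domain -/
theorem Adm.mem {B : Finset (Fin 6)} {b : C6} {x : ℂ} {g : ℝ → ℝ} (h : Adm B b x g) {t : ℝ}
    (ht : 0 ≤ t) {l : Fin 6} (hl : b l ≠ x ∨ 0 < t) : gam x g t - b l ∈ Sb B l := by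
  rw [mem_Sb_iff]
  intro h0
  rw [sub_re, gam_re] at h0
  have e : (b l - x).re = t := by rw [sub_re]; linarith
  rcases eq_or_ne (b l) x with h1 | h1
  · rcases hl with h2 | h2
    · exact absurd h1 h2
    · rw [h1, sub_self, zero_re] at e; linarith
  · have h2 := h.2 l h1 (by rw [e]; exact ht)
    rw [e] at h2
    rw [sub_im, gam_im]
    rw [sub_im] at h2
    exact ⟨fun h3 => by linarith [h2.1 h3], fun h3 => by linarith [h2.2 h3]⟩

theorem Adm.mem_Dm {B : Finset (Fin 6)} {b : C6} {x : ℂ} {g : ℝ → ℝ} (h : Adm B b x g) {t : ℝ}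
    (ht : 0 < t) : gam x g t ∈ Dm B b := fun _ => h.mem ht.le (Or.inr ht)

theorem Adm.start_mem {B : Finset (Fin 6)} {b : C6} {x : ℂ} {g : ℝ → ℝ} (h : Adm B b x g)
    (hx : ∀ l, b l ≠ x) : x ∈ Dm B b := fun l => by
  have := h.mem le_rfl (Or.inl (hx l))
  rwa [gam_zero h.1.zero] at this

theorem Adm.ok {B : Finset (Fin 6)} {b : C6} {x : ℂ} {g : ℝ → ℝ} (h : Adm B b x g) :
    OK B b x := by
  refine ⟨fun l hl m hm e1 e2 => ?_, fun l hl e => ?_⟩
  · have n1 : b l ≠ x := by rintro h1; rw [h1] at e2; exact lt_irrefl _ e2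
    have n2 : b m ≠ x := by rintro h1; rw [e1, h1] at e2; exact lt_irrefl _ e2
    have h1 := (h.2 l n1 (by rw [sub_re]; linarith)).1 hl
    have h2 := (h.2 m n2 (by rw [sub_re, ← e1]; linarith)).2 hm
    have e3 : (b m - x).re = (b l - x).re := by rw [sub_re, sub_re, e1]
    rw [e3] at h2
    have h3 := h2.trans h1
    rw [sub_im, sub_im] at h3
    linarith
  · have h1 := h.2 l hl (by rw [sub_re]; linarith)
    have e3 : (b l - x).re = 0 := by rw [sub_re]; linarith
    rw [e3, h.1.zero, sub_im] at h1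
    exact ⟨fun h2 => by linarith [h1.1 h2], fun h2 => by linarith [h1.2 h2]⟩

theorem IsPath.const_zero : IsPath 0 := ⟨contDiff_const, rfl, 0, fun t => by simp⟩

theorem IsPath.comb {g h : ℝ → ℝ} (hg : IsPath g) (hh : IsPath h) (s u : ℝ) :
    IsPath fun t => s * g t + u * h t := by
  obtain ⟨K, hK⟩ := hg.bdd
  obtain ⟨L, hL⟩ := hh.bdd
  refine ⟨(contDiff_const.mul hg.smooth).add (contDiff_const.mul hh.smooth), by
    simp [hg.zero, hh.zero], |s| * K + |u| * L, fun t => ?_⟩
  have dg : DifferentiableAt ℝ g t := (hg.smooth.differentiable (by simp)) t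
  have dh : DifferentiableAt ℝ h t := (hh.smooth.differentiable (by simp)) t
  have e : deriv (fun t => s * g t + u * h t) t = s * deriv g t + u * deriv h t := by
    rw [deriv_fun_add (dg.const_mul s) (dh.const_mul u), deriv_const_mul _ dg, deriv_const_mul _ dh]
  rw [e]
  refine (abs_add_le _ _).trans ?_
  rw [abs_mul, abs_mul]
  gcongr
  · exact hK t
  · exact hL t

/-- admissible paths form a convex set -/
theorem Adm.convex {B : Finset (Fin 6)} {b : C6} {x : ℂ} {g h : ℝ → ℝ} (hg : Adm B b x g)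
    (hh : Adm B b x h) {s : ℝ} (h0 : 0 ≤ s) (h1 : s ≤ 1) :
    Adm B b x fun t => (1 - s) * g t + s * h t := by
  refine ⟨hg.1.comb hh.1 _ _, fun l hl hr => ?_⟩
  obtain ⟨a1, a2⟩ := hg.2 l hl hr
  obtain ⟨c1, c2⟩ := hh.2 l hl hr
  constructor
  · intro hB
    have e1 := a1 hB
    have e2 := c1 hB
    have : (1 - s) * g (b l - x).re + s * h (b l - x).re <
        (1 - s) * (b l - x).im + s * (b l - x).im := by
      rcases h0.eq_or_lt with h3 | h3
      · rw [← h3]; simpa using e1
      · nlinarith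
    linarith
  · intro hB
    have e1 := a2 hB
    have e2 := c2 hB
    have : (1 - s) * (b l - x).im + s * (b l - x).im <
        (1 - s) * g (b l - x).re + s * h (b l - x).re := by
      rcases h0.eq_or_lt with h3 | h3
      · rw [← h3]; simpa using e1
      · nlinarith
    linarith

end

end Vale.Agent.P273.H857
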