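import Vale.Agent.P273.H857.Stm

/-!
The sets of labels that may be passed from below, and chains of flips of one label.
-/

open Complex Set Filter Topology MeasureTheory
open scoped ContDiff

namespace Vale.Agent.P273.H857

noncomputable section

theorem XX_injective {b : C6} (hb : b ∈ XX) : Function.Injective b := by
  intro i j h
  by_contra hij
  rcases lt_or_gt_of_ne hij with h1 | h1
  · have := hb i j h1 (by rw [h])
    rw [h] at this
    exact lt_irrefl _ this
  · have := hb j i h1 (by rw [h])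
    rw [h] at this
    exact lt_irrefl _ this

theorem isOpen_XX : IsOpen XX := by
  have h1 : XX = ⋂ i : Fin 6, ⋂ j : Fin 6, {b : C6 | i < j → b i - b j ∈ Sl} := by
    ext b
    simp only [XX, mem_iInter, mem_ofPred_eq, Sl, sub_im, sub_re]
    refine forall_congr' fun i => forall_congr' fun j => imp_congr_right fun _ => ?_
    constructor
    · intro h
      by_cases h2 : (b i).re = (b j).re
      · left; linarith [h h2]
      · right; intro h3; exact h2 (by linarith)
    · rintro (h | h) h2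
      · linarith
      · exact absurd (by linarith) h
  rw [h1]
  refine isOpen_iInter_of_finite fun i => isOpen_iInter_of_finite fun j => ?_
  by_cases hij : i < j
  · simp only [hij, true_imp_iff]
    exact isOpen_Sl.preimage (by fun_prop)
  · simp only [hij, false_imp_iff]
    exact isOpen_univ

theorem mem_lo {j l : Fin 6} : l ∈ lo j ↔ l < j := by simp [lo]

theorem OK_lo {b : C6} (hb : b ∈ XX) (j : Fin 6) : OK (lo j) b (b j) := by
  refine ⟨fun l hl m hm e _ => ?_, fun l hl e => ?_⟩
  · rw [mem_lo] at hl hm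
    exact hb l m (hl.trans_le (not_lt.1 hm)) e
  · constructor
    · intro h
      exact hb l j (mem_lo.1 h) e
    · intro h
      rw [mem_lo, not_lt] at h
      have hne : j ≠ l := by rintro rfl; exact hl rfl
      exact hb j l (lt_of_le_of_ne h hne) e.symm

theorem mem_TA {b : C6} {x : ℂ} {l : Fin 6} : l ∈ TA b x ↔ (b l).re = x.re ∧ x.im < (b l).im := by
  simp [TA]

theorem OK_TA (b : C6) (x : ℂ) : OK (TA b x) b x := by
  refine ⟨fun l hl m hm e h => ?_, fun l hl e => ⟨fun h => (mem_TA.1 h).2, fun h => ?_⟩⟩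
  · rw [(mem_TA.1 hl).1] at h
    exact absurd h (lt_irrefl _)
  · rw [mem_TA, not_and, not_lt] at h
    refine lt_of_le_of_ne (h e) fun h2 => hl (Complex.ext e h2)

/-- a chain of sets from `B` to `B ∪ C` -/
def ch (B C : Finset (Fin 6)) (r : ℕ) : Finset (Fin 6) := B ∪ C.filter fun l => (l : ℕ) < r

theorem mem_ch {B C : Finset (Fin 6)} {r : ℕ} {l : Fin 6} :
    l ∈ ch B C r ↔ l ∈ B ∨ (l ∈ C ∧ (l : ℕ) < r) := by simp [ch]

theorem OK.ch {B C : Finset (Fin 6)} {b : C6} {x : ℂ} (hb : b ∈ XX) (hB : OK B b x)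
    (hC : OK C b x) (r : ℕ) : OK (ch B C r) b x := by
  refine ⟨fun l hl m hm e h => ?_, fun l hl e => ⟨fun h => ?_, fun h => ?_⟩⟩
  · rw [mem_ch] at hl hm
    push Not at hm
    rcases hl with hl | ⟨hl, hr⟩
    · exact hB.1 l hl m hm.1 e h
    · by_cases hmC : m ∈ C
      · have h1 := hm.2 hmC
        exact hb l m (Fin.lt_def.2 (lt_of_lt_of_le hr h1)) e
      · exact hC.1 l hl m hmC e h
  · rw [mem_ch] at h
    rcases h with h | h
    · exact (hB.2 l hl e).1 h
    · exact (hC.2 l hl e).1 h.1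
  · rw [mem_ch, not_or] at h
    exact (hB.2 l hl e).2 h.1

theorem ch_zero (B C : Finset (Fin 6)) : ch B C 0 = B := by
  ext l; simp [mem_ch]

theorem ch_six (B C : Finset (Fin 6)) : ch B C 6 = B ∪ C := by
  ext l; simp [mem_ch]

/-- chains of flips -/
theorem OK.chain {b : C6} (hb : b ∈ XX) {x : ℂ} {Q : Finset (Fin 6) → Prop}
    (hQ : ∀ B m, m ∉ B → OK B b x → OK (insert m B) b x → (Q B ↔ Q (insert m B)))
    {B C : Finset (Fin 6)} (hB : OK B b x) (hC : OK C b x) : Q B ↔ Q C := by
  have key : ∀ B C : Finset (Fin 6), OK B b x → OK C b x → ∀ r : ℕ, (Q B ↔ Q (H857.ch B C r)) := by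
    intro B C hB hC r
    induction r with
    | zero => rw [ch_zero]
    | succ r ih =>
      rw [ih]
      by_cases h : ∃ l : Fin 6, (l : ℕ) = r ∧ l ∈ C ∧ l ∉ B
      · obtain ⟨l, h1, h2, h3⟩ := h
        have e : H857.ch B C (r + 1) = insert l (H857.ch B C r) := by
          ext m
          simp only [mem_ch, Finset.mem_insert]
          constructor
          · rintro (h | ⟨h, h'⟩)
            · exact Or.inr (Or.inl h)
            · rcases (Nat.lt_succ_iff_lt_or_eq.1 h') with h4 | h4
              · exact Or.inr (Or.inr ⟨h, h4⟩)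
              · left; exact Fin.ext (h4.trans h1.symm)
          · rintro (h | h | h)
            · rw [h]; exact Or.inr ⟨h2, by omega⟩
            · exact Or.inl h
            · exact Or.inr ⟨h.1, by omega⟩
        rw [e]
        refine hQ _ _ ?_ (hB.ch hb hC r) (by rw [← e]; exact hB.ch hb hC (r + 1))
        rw [mem_ch]
        push Not
        exact ⟨h3, fun _ => h1.ge⟩
      · have e : H857.ch B C (r + 1) = H857.ch B C r := by
          push Not at h
          ext m
          simp only [mem_ch]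
          constructor
          · rintro (h5 | ⟨h5, h'⟩)
            · exact Or.inl h5
            · rcases (Nat.lt_succ_iff_lt_or_eq.1 h') with h4 | h4
              · exact Or.inr ⟨h5, h4⟩
              · exact Or.inl (h m h4 h5)
          · rintro (h5 | ⟨h5, h'⟩)
            · exact Or.inl h5
            · exact Or.inr ⟨h5, by omega⟩
        rw [e]
  have h1 := key B C hB hC 6
  have h2 := key C B hC hB 6
  rw [ch_six] at h1 h2
  rw [h1, h2, Finset.union_comm]

/-- the root that is flipped is a good starting point -/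
theorem OK.flip_root {B : Finset (Fin 6)} {b : C6} {x : ℂ} {m : Fin 6} (hm : m ∉ B)
    (h : OK B b x) (h' : OK (insert m B) b x) (hr : x.re < (b m).re) : OK B b (b m) := by
  refine ⟨fun l hl n hn e h1 => h.1 l hl n hn e (hr.trans h1), fun l hl e => ⟨fun h1 => ?_,
    fun h1 => ?_⟩⟩
  · exact h.1 l h1 m hm e (by rw [e]; exact hr)
  · refine h'.1 m (Finset.mem_insert_self _ _) l ?_ e.symm hr
    rw [Finset.mem_insert, not_or]
    exact ⟨fun h2 => hl (by rw [h2]), h1⟩

/-- a flipped label is not on the vertical line of the starting point -/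
theorem OK.flip_ne {B : Finset (Fin 6)} {b : C6} {x : ℂ} {m : Fin 6} (hm : m ∉ B)
    (h : OK B b x) (h' : OK (insert m B) b x) (hx : b m ≠ x) : (b m).re ≠ x.re := by
  intro e
  have h1 := (h.2 m hx e).2 hm
  have h2 := (h'.2 m hx e).1 (Finset.mem_insert_self _ _)
  exact absurd (h1.trans h2) (lt_irrefl _)

section Rows

variable (hEX : StmEX) (hLOW : StmLOW) (hLOWR : StmLOWR)

include hEX hLOW in
/-- `OK` is an open condition -/
theorem OK.eventually {B : Finset (Fin 6)} {b : C6} {x : ℂ} (h : OK B b x) (hx : ∀ l, b l ≠ x) :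
    ∀ᶠ p : C6 × ℂ in 𝓝 (b, x), OK B p.1 p.2 ∧ ∀ l, p.1 l ≠ p.2 := by
  obtain ⟨g, hg⟩ := hEX B b x h
  obtain ⟨ε, hε, c, hc, H⟩ := hLOW B b x g hg hx
  have h1 : ∀ᶠ p : C6 × ℂ in 𝓝 (b, x), p ∈ Metric.ball (b, x) ε := Metric.ball_mem_nhds _ hε
  filter_upwards [h1] with p hp
  rw [Metric.mem_ball, Prod.dist_eq, max_lt_iff, dist_eq_norm, dist_eq_norm] at hp
  have h2 := H p.1 p.2 hp.1 hp.2
  exact ⟨h2.1.ok, h2.2.1⟩

include hEX hLOWR in
/-- `OK` is an open condition, at the roots -/
theorem OK.eventually_root {B : Finset (Fin 6)} {b : C6} {j : Fin 6} (h : OK B b (b j))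
    (hx : ∀ l, l ≠ j → b l ≠ b j) :
    ∀ᶠ b' : C6 in 𝓝 b, OK B b' (b' j) ∧ ∀ l, l ≠ j → b' l ≠ b' j := by
  obtain ⟨g, hg⟩ := hEX B b (b j) h
  obtain ⟨ε, hε, c, hc, H⟩ := hLOWR B b j g hg hx
  have h1 : ∀ᶠ b' : C6 in 𝓝 b, b' ∈ Metric.ball b ε := Metric.ball_mem_nhds _ hε
  filter_upwards [h1] with b' hb'
  rw [Metric.mem_ball, dist_eq_norm] at hb'
  have h2 := H b' hb'
  exact ⟨h2.1.ok, h2.2.1⟩

end Rows

end

end Vale.Agent.P273.H857
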