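import Mathlib

/-!
The square root `rt` with the cut along the downward half line, and its partner `ru` with the cut
along the upward half line.
-/

open Complex Set Filter Topology

namespace Vale.Agent.P273.H857

noncomputable section

/-- Square root with the cut on the closed downward half line. -/
def rt (z : ℂ) : ℂ := cexp (I * (Real.pi : ℂ) / 4) * (-I * z) ^ (1 / 2 : ℂ)

/-- Square root with the cut on the closed upward half line. -/
def ru (z : ℂ) : ℂ := cexp (-(I * (Real.pi : ℂ) / 4)) * (I * z) ^ (1 / 2 : ℂ)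

/-- The plane without the closed downward half line from the origin. -/
def Sl : Set ℂ := {z | 0 < z.im ∨ z.re ≠ 0}

/-- The plane without the closed upward half line from the origin. -/
def Su : Set ℂ := {z | z.im < 0 ∨ z.re ≠ 0}

theorem isOpen_Sl : IsOpen Sl :=
  (isOpen_lt continuous_const continuous_im).union (isOpen_ne_fun continuous_re continuous_const)

theorem isOpen_Su : IsOpen Su :=
  (isOpen_lt continuous_im continuous_const).union (isOpen_ne_fun continuous_re continuous_const)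

theorem neg_I_mul_mem {z : ℂ} (h : z ∈ Sl) : -I * z ∈ slitPlane := by
  rw [mem_slitPlane_iff]
  rcases h with h | h
  · left; simpa using h
  · right; simpa using h

theorem I_mul_mem {z : ℂ} (h : z ∈ Su) : I * z ∈ slitPlane := by
  rw [mem_slitPlane_iff]
  rcases h with h | h
  · left; simpa using h
  · right; simpa using h

theorem ne_zero_of_mem {z : ℂ} (h : z ∈ Sl) : z ≠ 0 := by
  rintro rfl; rcases h with h | h <;> simp at h

theorem ne_zero_of_mem_Su {z : ℂ} (h : z ∈ Su) : z ≠ 0 := by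
  rintro rfl; rcases h with h | h <;> simp at h

theorem cpow_half_mul_self (w : ℂ) : w ^ (1 / 2 : ℂ) * w ^ (1 / 2 : ℂ) = w := by
  rcases eq_or_ne w 0 with rfl | h
  · simp
  · rw [← cpow_add _ _ h]; norm_num

theorem exp_quarter : cexp (I * (Real.pi : ℂ) / 4) * cexp (I * (Real.pi : ℂ) / 4) = I := by
  rw [← Complex.exp_add]
  have : I * (Real.pi : ℂ) / 4 + I * (Real.pi : ℂ) / 4 = Real.pi / 2 * I := by ring
  rw [this, Complex.exp_pi_div_two_mul_I]

theorem exp_quarter' : cexp (-(I * (Real.pi : ℂ) / 4)) * cexp (-(I * (Real.pi : ℂ) / 4)) = -I := by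
  rw [← Complex.exp_add]
  have : -(I * (Real.pi : ℂ) / 4) + -(I * (Real.pi : ℂ) / 4) = -(Real.pi / 2 * I) := by ring
  rw [this, Complex.exp_neg, Complex.exp_pi_div_two_mul_I, inv_I]

theorem rt_mul_self (z : ℂ) : rt z * rt z = z := by
  unfold rt
  rw [mul_mul_mul_comm, exp_quarter, cpow_half_mul_self]
  rw [← mul_assoc, mul_neg, I_mul_I]; simp

theorem ru_mul_self (z : ℂ) : ru z * ru z = z := by
  unfold ru
  rw [mul_mul_mul_comm, exp_quarter', cpow_half_mul_self]
  rw [← mul_assoc, neg_mul, I_mul_I]; simp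

theorem rt_zero : rt 0 = 0 := by
  have := rt_mul_self 0
  simpa using this

theorem ru_zero : ru 0 = 0 := by
  have := ru_mul_self 0
  simpa using this

theorem rt_ne_zero {z : ℂ} (h : z ≠ 0) : rt z ≠ 0 := by
  intro h0
  have := rt_mul_self z
  rw [h0, mul_zero] at this
  exact h this.symm

theorem ru_ne_zero {z : ℂ} (h : z ≠ 0) : ru z ≠ 0 := by
  intro h0
  have := ru_mul_self z
  rw [h0, mul_zero] at this
  exact h this.symm

theorem norm_rt (z : ℂ) : ‖rt z‖ = Real.sqrt ‖z‖ := by
  have h := congrArg norm (rt_mul_self z)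
  rw [norm_mul] at h
  rw [← h, Real.sqrt_mul_self (norm_nonneg _)]

theorem norm_ru (z : ℂ) : ‖ru z‖ = Real.sqrt ‖z‖ := by
  have h := congrArg norm (ru_mul_self z)
  rw [norm_mul] at h
  rw [← h, Real.sqrt_mul_self (norm_nonneg _)]

theorem analyticAt_rt {z : ℂ} (h : z ∈ Sl) : AnalyticAt ℂ rt z := by
  unfold rt
  refine analyticAt_const.mul ?_
  refine AnalyticAt.cpow ?_ analyticAt_const (neg_I_mul_mem h)
  fun_prop

theorem analyticAt_ru {z : ℂ} (h : z ∈ Su) : AnalyticAt ℂ ru z := by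
  unfold ru
  refine analyticAt_const.mul ?_
  refine AnalyticAt.cpow ?_ analyticAt_const (I_mul_mem h)
  fun_prop

theorem differentiableAt_rt {z : ℂ} (h : z ∈ Sl) : DifferentiableAt ℂ rt z :=
  (analyticAt_rt h).differentiableAt

theorem differentiableAt_ru {z : ℂ} (h : z ∈ Su) : DifferentiableAt ℂ ru z :=
  (analyticAt_ru h).differentiableAt

theorem hasDerivAt_rt {z : ℂ} (h : z ∈ Sl) : HasDerivAt rt (1 / (2 * rt z)) z := by
  have h1 := (differentiableAt_rt h).hasDerivAt
  have h2 : HasDerivAt (fun w => rt w * rt w) (deriv rt z * rt z + rt z * deriv rt z) z :=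
    h1.mul h1
  have h3 : HasDerivAt (fun w => rt w * rt w) 1 z := by
    have : (fun w => rt w * rt w) = fun w => w := funext rt_mul_self
    rw [this]; exact hasDerivAt_id z
  have h4 := h2.unique h3
  have h5 := rt_ne_zero (ne_zero_of_mem h)
  have h6 : deriv rt z = 1 / (2 * rt z) := by
    field_simp
    linear_combination h4
  rw [← h6]; exact h1

theorem hasDerivAt_ru {z : ℂ} (h : z ∈ Su) : HasDerivAt ru (1 / (2 * ru z)) z := by
  have h1 := (differentiableAt_ru h).hasDerivAt
  have h2 : HasDerivAt (fun w => ru w * ru w) (deriv ru z * ru z + ru z * deriv ru z) z :=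
    h1.mul h1
  have h3 : HasDerivAt (fun w => ru w * ru w) 1 z := by
    have : (fun w => ru w * ru w) = fun w => w := funext ru_mul_self
    rw [this]; exact hasDerivAt_id z
  have h4 := h2.unique h3
  have h5 := ru_ne_zero (ne_zero_of_mem_Su h)
  have h6 : deriv ru z = 1 / (2 * ru z) := by
    field_simp
    linear_combination h4
  rw [← h6]; exact h1

/-- Positive homogeneity of degree one half. -/
theorem rt_smul {t : ℝ} (ht : 0 ≤ t) (z : ℂ) : rt (t * z) = Real.sqrt t * rt z := by
  rcases ht.eq_or_lt with rfl | ht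
  · simp [rt_zero]
  unfold rt
  have h1 : -I * ((t : ℂ) * z) = (t : ℂ) * (-I * z) := by ring
  rw [h1, mul_cpow_ofReal_nonneg' ht.le]
  have h2 : ((t : ℂ)) ^ (1 / 2 : ℂ) = (Real.sqrt t : ℂ) := by
    rw [Real.sqrt_eq_rpow, ofReal_cpow ht.le]; norm_num
  rw [h2]; ring
where
  mul_cpow_ofReal_nonneg' {t : ℝ} (ht : 0 ≤ t) {w : ℂ} :
      ((t : ℂ) * w) ^ (1 / 2 : ℂ) = (t : ℂ) ^ (1 / 2 : ℂ) * w ^ (1 / 2 : ℂ) := by
    rcases ht.eq_or_lt with rfl | ht
    · simp
    rcases eq_or_ne w 0 with rfl | hw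
    · simp
    rw [cpow_def_of_ne_zero (mul_ne_zero (by exact_mod_cast ht.ne') hw),
      cpow_def_of_ne_zero (by exact_mod_cast ht.ne' : (t : ℂ) ≠ 0), cpow_def_of_ne_zero hw,
      Complex.log_ofReal_mul ht hw, ← Complex.exp_add, ← Complex.ofReal_log ht.le]
    congr 1; ring

theorem rt_smul_I {t : ℝ} (ht : 0 ≤ t) : rt (t * I) = Real.sqrt t * rt I := rt_smul ht I

theorem rt_one : rt 1 = 1 := by
  unfold rt
  rw [mul_one, cpow_def_of_ne_zero (by simp), Complex.log_neg_I, ← Complex.exp_add]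
  have : I * (Real.pi : ℂ) / 4 + -(Real.pi / 2) * I * (1 / 2) = 0 := by ring
  rw [this, Complex.exp_zero]

theorem ru_one : ru 1 = 1 := by
  unfold ru
  rw [mul_one, cpow_def_of_ne_zero (by simp), Complex.log_I, ← Complex.exp_add]
  have : -(I * (Real.pi : ℂ) / 4) + (Real.pi / 2) * I * (1 / 2) = 0 := by ring
  rw [this, Complex.exp_zero]

theorem rt_neg_one : rt (-1) = I := by
  unfold rt
  rw [mul_neg_one, neg_neg, cpow_def_of_ne_zero (by simp), Complex.log_I, ← Complex.exp_add]
  have : I * (Real.pi : ℂ) / 4 + (Real.pi / 2) * I * (1 / 2) = Real.pi / 2 * I := by ring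
  rw [this, Complex.exp_pi_div_two_mul_I]

theorem ru_neg_one : ru (-1) = -I := by
  unfold ru
  rw [mul_neg_one, cpow_def_of_ne_zero (by simp), Complex.log_neg_I, ← Complex.exp_add]
  have : -(I * (Real.pi : ℂ) / 4) + -(Real.pi / 2) * I * (1 / 2) = -(Real.pi / 2 * I) := by ring
  rw [this, Complex.exp_neg, Complex.exp_pi_div_two_mul_I, inv_I]

theorem continuousOn_rt : ContinuousOn rt Sl :=
  fun _ h => (analyticAt_rt h).continuousAt.continuousWithinAt

theorem continuousOn_ru : ContinuousOn ru Su :=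
  fun _ h => (analyticAt_ru h).continuousAt.continuousWithinAt

/-- On a connected set avoiding both cuts `rt = ± ru`. -/
theorem rt_eq_ru_or {S : Set ℂ} (hS : IsPreconnected S) (h1 : S ⊆ Sl) (h2 : S ⊆ Su) :
    EqOn rt ru S ∨ EqOn rt (-ru) S := by
  refine hS.eq_or_eq_neg_of_sq_eq (continuousOn_rt.mono h1) (continuousOn_ru.mono h2) ?_ ?_
  · intro z _
    simp only [Pi.pow_apply, pow_two, rt_mul_self, ru_mul_self]
  · intro z hz
    exact ru_ne_zero (ne_zero_of_mem_Su (h2 hz))

theorem rt_eq_ru {z : ℂ} (h : 0 < z.re) : rt z = ru z := by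
  have hS : IsPreconnected {z : ℂ | 0 < z.re} := (convex_halfSpace_re_gt 0).isPreconnected
  rcases rt_eq_ru_or hS (fun z hz => Or.inr (ne_of_gt hz)) (fun z hz => Or.inr (ne_of_gt hz)) with
    h1 | h1
  · exact h1 h
  · have := h1 (show (1 : ℂ) ∈ {z : ℂ | 0 < z.re} by simp)
    rw [rt_one, Pi.neg_apply, ru_one] at this
    norm_num at this

theorem rt_eq_neg_ru {z : ℂ} (h : z.re < 0) : rt z = -ru z := by
  have hS : IsPreconnected {z : ℂ | z.re < 0} := (convex_halfSpace_re_lt 0).isPreconnected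
  rcases rt_eq_ru_or hS (fun z hz => Or.inr (ne_of_lt hz)) (fun z hz => Or.inr (ne_of_lt hz)) with
    h1 | h1
  · have := h1 (show (-1 : ℂ) ∈ {z : ℂ | z.re < 0} by simp)
    rw [rt_neg_one, ru_neg_one] at this
    have h2 := congrArg Complex.im this
    norm_num at h2
  · exact h1 h

/-- Uniform lower bound along upward rays. -/
theorem ray_bound {z : ℂ} (h : z ∈ Sl) :
    ∃ c > 0, ∃ r > 0, ∀ z' ∈ Metric.ball z r, z' ∈ Sl ∧ ∀ t : ℝ, 0 ≤ t →
      c * (1 + t) ≤ ‖z' + t * I‖ := by
  have key : ∀ (a M : ℝ), 0 < a → 0 ≤ M → ∀ z' : ℂ, ‖z'‖ ≤ M → ∀ t : ℝ, 0 ≤ t →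
      a ≤ ‖z' + t * I‖ → min (a / (2 * M + 2)) (1 / 2) * (1 + t) ≤ ‖z' + t * I‖ := by
    intro a M ha hM z' hz' t ht h1
    have h2 : t - M ≤ ‖z' + t * I‖ := by
      have : ‖(t : ℂ) * I‖ ≤ ‖z' + t * I‖ + ‖z'‖ := by
        have := norm_sub_le (z' + t * I) z'
        simpa using this
      simp only [norm_mul, norm_real, norm_I, mul_one, Real.norm_eq_abs, abs_of_nonneg ht] at this
      linarith
    rcases le_total t (2 * M + 1) with h3 | h3
    · calc min (a / (2 * M + 2)) (1 / 2) * (1 + t) ≤ a / (2 * M + 2) * (1 + t) := by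
            gcongr; exact min_le_left _ _
        _ ≤ a / (2 * M + 2) * (2 * M + 2) :=
            mul_le_mul_of_nonneg_left (by linarith) (by positivity)
        _ = a := by field_simp
        _ ≤ _ := h1
    · calc min (a / (2 * M + 2)) (1 / 2) * (1 + t) ≤ 1 / 2 * (1 + t) := by
            gcongr; exact min_le_right _ _
        _ ≤ t - M := by linarith
        _ ≤ _ := h2
  by_cases h0 : 0 < z.im
  · refine ⟨min (z.im / 2 / (2 * (‖z‖ + z.im / 2) + 2)) (1 / 2), by positivity, z.im / 2,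
      by positivity, ?_⟩
    intro z' hz'
    rw [Metric.mem_ball, dist_eq] at hz'
    have h1 : |(z' - z).im| < z.im / 2 := (abs_im_le_norm _).trans_lt hz'
    rw [sub_im, abs_lt] at h1
    have h2 : ‖z'‖ ≤ ‖z‖ + z.im / 2 := by
      have := norm_le_norm_add_norm_sub z z'
      have h3 : ‖z - z'‖ = ‖z' - z‖ := norm_sub_rev _ _
      linarith
    refine ⟨Or.inl (by linarith), fun t ht => key _ _ (by positivity) (by positivity) _ h2 t ht ?_⟩
    calc z.im / 2 ≤ (z' + t * I).im := by simp; linarith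
      _ ≤ |(z' + t * I).im| := le_abs_self _
      _ ≤ _ := abs_im_le_norm _
  · have h1 : z.re ≠ 0 := by
      rcases h with h | h
      · exact absurd h h0
      · exact h
    have h1' : 0 < |z.re| := abs_pos.2 h1
    refine ⟨min (|z.re| / 2 / (2 * (‖z‖ + |z.re| / 2) + 2)) (1 / 2), by positivity, |z.re| / 2,
      by positivity, ?_⟩
    intro z' hz'
    rw [Metric.mem_ball, dist_eq] at hz'
    have h2 : |(z' - z).re| < |z.re| / 2 := (abs_re_le_norm _).trans_lt hz'
    have h3 : |z.re| / 2 ≤ |z'.re| := by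
      have : |z.re| ≤ |z'.re| + |(z' - z).re| := by
        rw [sub_re]
        have := abs_sub_abs_le_abs_sub z.re z'.re
        rw [abs_sub_comm z'.re z.re]; linarith
      linarith
    have h4 : ‖z'‖ ≤ ‖z‖ + |z.re| / 2 := by
      have := norm_le_norm_add_norm_sub z z'
      have h3 : ‖z - z'‖ = ‖z' - z‖ := norm_sub_rev _ _
      linarith
    refine ⟨Or.inr (fun h => ?_), fun t ht => key _ _ (by positivity) (by positivity) _ h4 t ht ?_⟩
    · rw [h, abs_zero] at h3; linarith
    · calc |z.re| / 2 ≤ |z'.re| := h3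
        _ = |(z' + t * I).re| := by simp
        _ ≤ _ := abs_re_le_norm _

theorem add_mem_Sl {z : ℂ} (h : z ∈ Sl) {t : ℝ} (ht : 0 ≤ t) : z + t * I ∈ Sl := by
  rcases h with h | h
  · left; simp; linarith
  · right; simpa using h

end

end Vale.Agent.P273.H857
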