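import Vale.Agent.P273.H857.Def

/-!
The statements of the block as propositions (each one is proved in a file of its own).
-/

open Complex Set Filter Topology MeasureTheory
open scoped ContDiff

namespace Vale.Agent.P273.H857

noncomputable section

/-- row GP-EX: if `OK` there is an admissible path -/
def StmEX : Prop := ∀ (B : Finset (Fin 6)) (b : C6) (x : ℂ), OK B b x → ∃ g, Adm B b x g

/-- row GP-LOW: uniform lower bounds near a point that is not a root -/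
def StmLOW : Prop := ∀ (B : Finset (Fin 6)) (b₀ : C6) (x₀ : ℂ) (g : ℝ → ℝ), Adm B b₀ x₀ g →
  (∀ l, b₀ l ≠ x₀) → ∃ ε > (0 : ℝ), ∃ c > (0 : ℝ), ∀ b x, ‖b - b₀‖ < ε → ‖x - x₀‖ < ε →
    Adm B b x g ∧ (∀ l, b l ≠ x) ∧ ∀ t ≥ (0 : ℝ), ∀ l, c * (1 + t) ≤ ‖gam x g t - b l‖

/-- row GP-LOW: uniform lower bounds for paths that start at a root -/
def StmLOWR : Prop := ∀ (B : Finset (Fin 6)) (b₀ : C6) (j : Fin 6) (g : ℝ → ℝ),
  Adm B b₀ (b₀ j) g → (∀ l, l ≠ j → b₀ l ≠ b₀ j) → ∃ ε > (0 : ℝ), ∃ c > (0 : ℝ),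
    ∀ b, ‖b - b₀‖ < ε → Adm B b (b j) g ∧ (∀ l, l ≠ j → b l ≠ b j) ∧
      ∀ t ≥ (0 : ℝ), ∀ l, l ≠ j → c * (1 + t) ≤ ‖gam (b j) g t - b l‖

/-- row GP-INV: the integral converges and does not depend on the path -/
def StmINV : Prop := ∀ (k : ℕ) (B : Finset (Fin 6)) (b : C6) (x : ℂ), k ≤ 1 →
  Function.Injective b → (∀ g, Adm B b x g → IntegrableOn (igd k B b x g) (Ioi 0)) ∧
    ∀ g₀ g₁, Adm B b x g₀ → Adm B b x g₁ → PG k B b x g₀ = PG k B b x g₁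

/-- row GP-HOL: holomorphy away from the roots, and the derivative -/
def StmHOL : Prop := ∀ (k : ℕ) (B : Finset (Fin 6)) (b₀ : C6) (x₀ : ℂ), k ≤ 1 →
  Function.Injective b₀ → (∀ l, b₀ l ≠ x₀) → OK B b₀ x₀ →
    AnalyticAt ℂ (fun p : C6 × ℂ => P k B p.1 p.2) (b₀, x₀) ∧
      HasDerivAt (P k B b₀) (x₀ ^ k / sq B b₀ x₀) x₀

/-- row GP-HOLR: holomorphy of the half periods -/
def StmHOLR : Prop := ∀ (k : ℕ) (B : Finset (Fin 6)) (b₀ : C6) (j : Fin 6), k ≤ 1 →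
  Function.Injective b₀ → OK B b₀ (b₀ j) → AnalyticAt ℂ (fun b : C6 => P k B b (b j)) b₀

/-- the factor at a root -/
def Er (k : ℕ) (j : Fin 6) (B : Finset (Fin 6)) (b : C6) (w : ℂ) : ℂ :=
  ∫ r in (0 : ℝ)..1, 2 * (b j + w * r ^ 2) ^ k / sqj j B b (b j + w * r ^ 2)

/-- row GP-ROOT: the structure at a root -/
def StmROOT : Prop := ∀ (k : ℕ) (B : Finset (Fin 6)) (b₀ : C6) (j : Fin 6), k ≤ 1 →
  Function.Injective b₀ → OK B b₀ (b₀ j) → j ∉ B →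
    AnalyticAt ℂ (fun p : C6 × ℂ => Er k j B p.1 p.2) (b₀, 0) ∧
      ∀ᶠ p : C6 × ℂ in 𝓝 (b₀, 0),
        (p.2 ∈ Sl → P k B p.1 (p.1 j + p.2) = P k B p.1 (p.1 j) + rt p.2 * Er k j B p.1 p.2) ∧
          (p.2 ∈ Su → P k (insert j B) p.1 (p.1 j + p.2) =
            P k B p.1 (p.1 j) + ru p.2 * Er k j B p.1 p.2)

/-- row GP-FLIP: the label `m` to the left of the starting point (or at it) -/
def StmFLIPR : Prop := ∀ (k : ℕ) (B : Finset (Fin 6)) (b : C6) (x : ℂ) (m : Fin 6), k ≤ 1 →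
  Function.Injective b → m ∉ B → OK B b x → OK (insert m B) b x → (b m).re ≤ x.re →
    P k (insert m B) b x = P k B b x

/-- row GP-FLIP: the label `m` to the right of the starting point -/
def StmFLIPL : Prop := ∀ (k : ℕ) (B : Finset (Fin 6)) (b : C6) (x : ℂ) (m : Fin 6), k ≤ 1 →
  Function.Injective b → m ∉ B → OK B b x → OK (insert m B) b x → x.re < (b m).re →
    P k (insert m B) b x + P k B b x = 2 * P k B b (b m)

/-- row GP-DEC: the primitives tend to zero at minus infinity -/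
def StmDEC : Prop := ∀ (k : ℕ) (b : C6), k ≤ 1 → Function.Injective b →
  Tendsto (fun R : ℝ => P k ∅ b (-(R : ℂ))) atTop (𝓝 0) ∧
    Tendsto (fun R : ℝ => P k Finset.univ b (-(R : ℂ))) atTop (𝓝 0)

/-- the primitive at infinity, in the coordinate `w = 1 / x` -/
def Ki (k : ℕ) (b : C6) (w : ℂ) : ℂ :=
  -(w ^ (2 - k) * ∫ r in (0 : ℝ)..1, (r : ℂ) ^ (1 - k) / ∏ l, (1 - b l * r * w) ^ (1 / 2 : ℂ))

/-- row GP-INF: the structure at infinity -/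
def StmINF : Prop := ∀ (k : ℕ) (b₀ : C6), k ≤ 1 → Function.Injective b₀ →
  AnalyticAt ℂ (fun p : C6 × ℂ => Ki k p.1 p.2) (b₀, 0) ∧
    ∀ᶠ p : C6 × ℂ in 𝓝 (b₀, 0), p.2 ≠ 0 →
      (p.2.im ≤ 0 → P k ∅ p.1 p.2⁻¹ = Ki k p.1 p.2) ∧
        (0 ≤ p.2.im → P k Finset.univ p.1 p.2⁻¹ = Ki k p.1 p.2)

/-- row GP-ALT: the alternating sum -/
def StmALT : Prop := ∀ (k : ℕ) (b : C6), k ≤ 1 → b ∈ XX →
  piX k 0 b - piX k 1 b + piX k 2 b - piX k 3 b + piX k 4 b - piX k 5 b = 0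

end

end Vale.Agent.P273.H857
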